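import Crest.Agent.R317.Rec
import Crest.Agent.R62.AlgVal
import Crest.Agent.R62.CompMath

/-!
# R62-AlgComp: the completion is polynomial-time

PT library: `Crest.Agent.Lib.PT.*` (see its entry in the `library` table: `PT`/`PB` are `fun_prop`
properties; `unfold …; fun_prop`; mark pair-valued definitions irreducible after their `PT` lemma).
`U` is the type of unary numbers (`u.val`).  NEVER unfold the exponents `eD`, `ek`, … (treat them as
opaque constants; `PT.const`, `PB.const`).
One move: list all `joinL N p i j` and `swiL N p i j k` (`i j k < N`), return the first candidate `p'` passing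
a Boolean check (involutive, `Simple`, `Ext p0 p'`, `cntL p' + 2 = cntL p`: bounded quantifiers over
`range N`, equivalent to the abstract properties of `decP N p'` for well-formed lists), or `p` if none.
Iterate `N` times (`PT.iterate`; to bound the size on ALL inputs either normalise the input list first
(`(range N).map fun k => p.getD k 0 % N`) or use `R317.iterG`).  By `comp_move` the number of free
half-edges drops by 2 until it is `0` (it is even).
-/

set_option autoImplicit false
open Matrix Finset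

namespace Crest.Agent.R62

open Crest.Agent.PTime

def AlgComp_swiL (N : ℕ) (p : List ℕ) (i j k : ℕ) : List ℕ :=
  (List.range N).map fun l => if l = i then k else if l = k then i else if l = j then p.getD k 0
    else if l = p.getD k 0 then j else p.getD l 0

theorem AlgComp_wfp_swiL {N : ℕ} {p : List ℕ} (hp : WFP N p) (i j k : Fin N) :
    WFP N (AlgComp_swiL N p i j k) := by
  refine AlgVal_wfp_map_range fun l hl => ?_
  split_ifs
  · exact k.isLt
  · exact i.isLt
  · exact AlgVal_getD_lt hp k.isLt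
  · exact j.isLt
  · exact AlgVal_getD_lt hp hl

theorem AlgComp_decP_swiL {N : ℕ} {p : List ℕ} (hp : WFP N p) (i j k : Fin N) :
    decP N (AlgComp_swiL N p i j k) = swi (decP N p) i j k := by
  funext l
  apply Fin.ext
  rw [decP_val (AlgComp_wfp_swiL hp i j k)]
  unfold AlgComp_swiL swi
  rw [AlgVal_getD_map_range N _ _ l.isLt, ← decP_val hp k, ← decP_val hp l]
  simp only [Fin.val_inj]
  split_ifs <;> rfl

@[fun_prop] theorem AlgComp_PT_swiL {α : Type*} [Enc α] {N i j k : α → ℕ} {p : α → List ℕ}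
    (hN : PT N) (hb : PB N) (hp : PT p) (hi : PT i) (hj : PT j) (hk : PT k) :
    PT (fun a => AlgComp_swiL (N a) (p a) (i a) (j a) (k a)) := by
  unfold AlgComp_swiL; fun_prop

def AlgComp_cands (N : ℕ) (p : List ℕ) : List (List ℕ) :=
  (List.range N).flatMap fun i => (List.range N).flatMap fun j =>
    joinL N p i j :: (List.range N).map fun k => AlgComp_swiL N p i j k

@[fun_prop] theorem AlgComp_PT_cands {α : Type*} [Enc α] {N : α → ℕ} {p : α → List ℕ}
    (hN : PT N) (hb : PB N) (hp : PT p) : PT (fun a => AlgComp_cands (N a) (p a)) := by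
  unfold AlgComp_cands; fun_prop

@[fun_prop] theorem AlgComp_PT_mateN {α : Type*} [Enc α] {u : α → ℕ} (hu : PT u) :
    PT (fun a => mateN (u a)) := by
  unfold mateN; fun_prop

def AlgComp_wfB (N : ℕ) (p : List ℕ) : Bool := decide (p.length = N) && p.all fun x => decide (x < N)

def AlgComp_invB (N : ℕ) (p : List ℕ) : Bool :=
  (List.range N).all fun k => decide (p.getD (p.getD k 0) 0 = k)

def AlgComp_simB (q N : ℕ) (p : List ℕ) : Bool :=
  (List.range N).all fun k => decide (p.getD k 0 = k) ||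
    (!decide (p.getD k 0 / q = k / q) && (!decide (p.getD k 0 / q = mateN (k / q)) &&
      (List.range N).all fun l => decide (l = k) || (!decide (l / q = k / q) ||
        (decide (p.getD l 0 = l) || !decide (p.getD l 0 / q = p.getD k 0 / q)))))

def AlgComp_extB (N : ℕ) (p0 p : List ℕ) : Bool :=
  (List.range N).all fun k => decide (p0.getD k 0 = k) || decide (p.getD k 0 = p0.getD k 0)

theorem AlgComp_wfB_iff (N : ℕ) (p : List ℕ) : AlgComp_wfB N p = true ↔ WFP N p := by
  simp [AlgComp_wfB, WFP]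

theorem AlgComp_invB_iff {N : ℕ} {p : List ℕ} (hp : WFP N p) :
    AlgComp_invB N p = true ↔ Function.Involutive (decP N p) := by
  unfold AlgComp_invB Function.Involutive
  simp only [List.all_eq_true, List.mem_range, decide_eq_true_eq, Fin.ext_iff, decP_val hp]
  exact ⟨fun h k => h k k.isLt, fun h k hk => h ⟨k, hk⟩⟩

theorem AlgComp_extB_iff {N : ℕ} {p0 p : List ℕ} (h0 : WFP N p0) (hp : WFP N p) :
    AlgComp_extB N p0 p = true ↔ Ext (decP N p0) (decP N p) := by
  unfold AlgComp_extB Ext
  simp only [List.all_eq_true, List.mem_range, Bool.or_eq_true, decide_eq_true_eq, ne_eq,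
    Fin.ext_iff, decP_val hp, decP_val h0]
  exact ⟨fun h k hk => (h k k.isLt).resolve_left hk,
    fun h k hk => (em _).imp id (h ⟨k, hk⟩)⟩

theorem AlgComp_simB_iff {q n : ℕ} (hq : 0 < q) (hn : Even n) {p : List ℕ} (hp : WFP (q * n) p) :
    AlgComp_simB q (q * n) p = true ↔ (heFin q n hq hn).Simple (decP (q * n) p) := by
  unfold AlgComp_simB HE.Simple
  simp only [List.all_eq_true, List.mem_range, Bool.or_eq_true, decide_eq_true_eq, ne_eq,
    Bool.and_eq_true, Bool.not_eq_true', decide_eq_false_iff_not, heFin,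
    Fin.ext_iff, decP_val hp]
  constructor
  · intro h k hk
    obtain ⟨h1, h2, h3⟩ := (h k k.isLt).resolve_left hk
    refine ⟨h1, h2, fun l hl h4 h5 => ?_⟩
    exact (((h3 l l.isLt).resolve_left hl).resolve_left (not_not.2 h4)).resolve_left h5
  · intro h k hk
    refine (em _).imp id fun h0 => ?_
    obtain ⟨h1, h2, h3⟩ := h ⟨k, hk⟩ h0
    refine ⟨h1, h2, fun l hl => ?_⟩
    have := h3 ⟨l, hl⟩
    tauto

def AlgComp_ok (q N : ℕ) (p0 p p' : List ℕ) : Bool :=
  AlgComp_wfB N p' && (AlgComp_invB N p' && (AlgComp_simB q N p' && (AlgComp_extB N p0 p' &&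
    decide (cntL N p' + 2 = cntL N p))))

@[fun_prop] theorem AlgComp_PT_wfB {α : Type*} [Enc α] {N : α → ℕ} {p : α → List ℕ}
    (hN : PT N) (hp : PT p) : PT (fun a => AlgComp_wfB (N a) (p a)) := by
  unfold AlgComp_wfB; fun_prop
@[fun_prop] theorem AlgComp_PT_invB {α : Type*} [Enc α] {N : α → ℕ} {p : α → List ℕ}
    (hN : PT N) (hb : PB N) (hp : PT p) : PT (fun a => AlgComp_invB (N a) (p a)) := by
  unfold AlgComp_invB; fun_prop
@[fun_prop] theorem AlgComp_PT_simB {α : Type*} [Enc α] (q : ℕ) {N : α → ℕ} {p : α → List ℕ}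
    (hN : PT N) (hb : PB N) (hp : PT p) : PT (fun a => AlgComp_simB q (N a) (p a)) := by
  unfold AlgComp_simB; fun_prop
@[fun_prop] theorem AlgComp_PT_extB {α : Type*} [Enc α] {N : α → ℕ} {p0 p : α → List ℕ}
    (hN : PT N) (hb : PB N) (h0 : PT p0) (hp : PT p) :
    PT (fun a => AlgComp_extB (N a) (p0 a) (p a)) := by
  unfold AlgComp_extB; fun_prop
theorem AlgComp_PT_ok {α : Type*} [Enc α] (q : ℕ) {N : α → ℕ} {p0 p p' : α → List ℕ}
    (hN : PT N) (hb : PB N) (h0 : PT p0) (hp : PT p) (hp' : PT p') :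
    PT (fun a => AlgComp_ok q (N a) (p0 a) (p a) (p' a)) :=
  (AlgComp_PT_wfB hN hp').band ((AlgComp_PT_invB hN hb hp').band ((AlgComp_PT_simB q hN hb hp').band
    ((AlgComp_PT_extB hN hb h0 hp').band
      (((PT_cntL hN hb hp').add (PT.const 2)).eq (PT_cntL hN hb hp)).decide)))

theorem AlgComp_ok_iff {q n : ℕ} (hq : 0 < q) (hn : Even n) {p0 p p' : List ℕ} (h0 : WFP (q * n) p0)
    (hp : WFP (q * n) p) : AlgComp_ok q (q * n) p0 p p' = true ↔ WFP (q * n) p' ∧
      Function.Involutive (decP (q * n) p') ∧ (heFin q n hq hn).Simple (decP (q * n) p') ∧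
      Ext (decP (q * n) p0) (decP (q * n) p') ∧
      (free (decP (q * n) p')).card + 2 = (free (decP (q * n) p)).card := by
  unfold AlgComp_ok
  simp only [Bool.and_eq_true, decide_eq_true_eq, AlgComp_wfB_iff]
  refine and_congr_right fun h => ?_
  rw [AlgComp_invB_iff h, AlgComp_simB_iff hq hn h, AlgComp_extB_iff h0 h, cntL_eq h, cntL_eq hp]

def AlgComp_move (q N : ℕ) (p0 p : List ℕ) : List ℕ :=
  ((AlgComp_cands N p).find? fun p' => AlgComp_ok q N p0 p p').getD p

theorem AlgComp_move_cases (q N : ℕ) (p0 p : List ℕ) :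
    (AlgComp_move q N p0 p = p ∧ ∀ p' ∈ AlgComp_cands N p, ¬ AlgComp_ok q N p0 p p' = true) ∨
      AlgComp_ok q N p0 p (AlgComp_move q N p0 p) = true := by
  unfold AlgComp_move
  rcases h : (AlgComp_cands N p).find? fun p' => AlgComp_ok q N p0 p p' with _ | x
  · exact Or.inl ⟨rfl, List.find?_eq_none.1 h⟩
  · exact Or.inr (List.find?_some (p := fun p' => AlgComp_ok q N p0 p p') h)

theorem AlgComp_sz_wfp {N : ℕ} {p : List ℕ} (h : WFP N p) : sz p ≤ N * (4 * N + 2) + 1 := by
  have := sz_list_le (l := p) (B := 4 * N + 1) fun a ha => by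
    have := sz_le_self a
    have := h.2 a ha
    omega
  rwa [h.1] at this

theorem AlgComp_sz_iter (q N : ℕ) (p0 p : List ℕ) (i : ℕ) :
    sz ((AlgComp_move q N p0)^[i] p) ≤ sz p + (N * (4 * N + 2) + 1) := by
  induction i with
  | zero => simp
  | succ i ih =>
    rw [Function.iterate_succ_apply']
    rcases AlgComp_move_cases q N p0 ((AlgComp_move q N p0)^[i] p) with h | h
    · rw [h.1]; exact ih
    · unfold AlgComp_ok at h
      simp only [Bool.and_eq_true, AlgComp_wfB_iff] at h
      exact (AlgComp_sz_wfp h.1).trans (Nat.le_add_left _ _)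

theorem AlgComp_PT_move {α : Type*} [Enc α] (q : ℕ) {N : α → ℕ} {p0 p : α → List ℕ}
    (hN : PT N) (hb : PB N) (h0 : PT p0) (hp : PT p) :
    PT (fun a => AlgComp_move q (N a) (p0 a) (p a)) := by
  unfold AlgComp_move
  refine PT.getD_option (PT.find? (f := fun a p' => AlgComp_ok q (N a) (p0 a) (p a) p') ?_
    (AlgComp_PT_cands hN hb hp)) hp
  have e : PT fun x : α × List ℕ => x.1 := by fun_prop
  exact AlgComp_PT_ok q (hN.comp e) (hb.comp e) (h0.comp e) (hp.comp e) (by fun_prop)

theorem AlgComp_iter {q n : ℕ} (hq : 0 < q) (hn : Even n) {p : List ℕ} (hp : WFP (q * n) p)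
    (hi : Function.Involutive (decP (q * n) p)) (hs : (heFin q n hq hn).Simple (decP (q * n) p))
    (he : Even (free (decP (q * n) p)).card) (hbig : 10 * (q + 1) ^ 2 ≤ (free (decP (q * n) p)).card)
    (t : ℕ) : ∀ r, r = (AlgComp_move q (q * n) p)^[t] p → WFP (q * n) r ∧
      Function.Involutive (decP (q * n) r) ∧ (heFin q n hq hn).Simple (decP (q * n) r) ∧
      Ext (decP (q * n) p) (decP (q * n) r) ∧ Even (free (decP (q * n) r)).card ∧
      ((free (decP (q * n) r)).card = 0 ∨
        (free (decP (q * n) r)).card + 2 * t ≤ (free (decP (q * n) p)).card) := by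
  induction t with
  | zero =>
    rintro r rfl
    exact ⟨hp, hi, hs, fun _ _ => rfl, he, Or.inr le_rfl⟩
  | succ t ih =>
    rintro r' rfl
    rw [Function.iterate_succ_apply']
    obtain ⟨r, hr⟩ : ∃ r, r = (AlgComp_move q (q * n) p)^[t] p := ⟨_, rfl⟩
    obtain ⟨h1, h2, h3, h4, h5, h6⟩ := ih r hr
    rw [← hr]
    rcases AlgComp_move_cases q (q * n) p r with h | h
    · rw [h.1]
      refine ⟨h1, h2, h3, h4, h5, Or.inl ?_⟩
      by_contra h0
      have h7 : 2 ≤ (free (decP (q * n) r)).card := by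
        obtain ⟨c, hc⟩ := h5
        omega
      obtain ⟨i, j, k, pm', e, g1, g2, g3, g4⟩ := comp_move (heFin q n hq hn) hi h2 h3 h4 h7 hbig
      rcases e with rfl | rfl
      · refine h.2 (joinL (q * n) r i j) ?_ ((AlgComp_ok_iff hq hn hp h1).2 ?_)
        · simp only [AlgComp_cands, List.mem_flatMap, List.mem_range, List.mem_cons]
          exact ⟨i, i.isLt, j, j.isLt, Or.inl rfl⟩
        · rw [decP_joinL h1]
          exact ⟨wfp_joinL h1 i j, g1, g2, g3, g4⟩
      · refine h.2 (AlgComp_swiL (q * n) r i j k) ?_ ((AlgComp_ok_iff hq hn hp h1).2 ?_)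
        · simp only [AlgComp_cands, List.mem_flatMap, List.mem_range, List.mem_cons, List.mem_map]
          exact ⟨i, i.isLt, j, j.isLt, Or.inr ⟨k, k.isLt, rfl⟩⟩
        · rw [AlgComp_decP_swiL h1]
          exact ⟨AlgComp_wfp_swiL h1 i j k, g1, g2, g3, g4⟩
    · obtain ⟨g0, g1, g2, g3, g4⟩ := (AlgComp_ok_iff hq hn hp h1).1 h
      refine ⟨g0, g1, g2, g3, ?_, ?_⟩
      · obtain ⟨c, hc⟩ := h5
        exact ⟨c - 1, by omega⟩
      · omega

theorem exists_compL (q : ℕ) (hq : 0 < q) : ∃ compL : ℕ → List ℕ → List ℕ,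
    PT (fun x : U × List ℕ => compL x.1.val x.2) ∧
    ∀ (n : ℕ) (hn : Even n) (p : List ℕ), WFP (q * n) p → Function.Involutive (decP (q * n) p) →
      (heFin q n hq hn).Simple (decP (q * n) p) → Even (free (decP (q * n) p)).card →
      10 * (q + 1) ^ 2 ≤ (free (decP (q * n) p)).card →
      WFP (q * n) (compL n p) ∧ Function.Involutive (decP (q * n) (compL n p)) ∧
        (heFin q n hq hn).Simple (decP (q * n) (compL n p)) ∧
        Ext (decP (q * n) p) (decP (q * n) (compL n p)) ∧ ∀ k, decP (q * n) (compL n p) k ≠ k := by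
  refine ⟨fun n p => (AlgComp_move q (q * n) p)^[q * n] p, ?_, fun n hn p hp hi hs he hbig => ?_⟩
  · have hN : PT fun x : U × List ℕ => q * x.1.val := by fun_prop
    have hb : PB fun x : U × List ℕ => q * x.1.val := by fun_prop
    refine PT.iterate (f := fun (x : U × List ℕ) r => AlgComp_move q (q * x.1.val) x.2 r)
      (init := fun x => x.2) (n := fun x => q * x.1.val) ?_ (by fun_prop) hN hb
      (B := fun x => sz x.2 + (q * x.1.val * (4 * (q * x.1.val) + 2) + 1)) (by fun_prop)
      fun x i _ => AlgComp_sz_iter _ _ _ _ _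
    exact AlgComp_PT_move q (by fun_prop) (by fun_prop) (by fun_prop) (by fun_prop)
  · obtain ⟨h1, h2, h3, h4, -, h6⟩ := AlgComp_iter hq hn hp hi hs he hbig (q * n) _ rfl
    refine ⟨h1, h2, h3, h4, fun k hk => ?_⟩
    have e1 : (free (decP (q * n) p)).card ≤ q * n := by
      simpa using card_le_univ (free (decP (q * n) p))
    have e2 : 0 < (free (decP (q * n) ((AlgComp_move q (q * n) p)^[q * n] p))).card :=
      card_pos.2 ⟨k, mem_filter.2 ⟨mem_univ _, hk⟩⟩
    have := k.pos
    omega

end Crest.Agent.R62
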