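import Mathlib

/-!
# Row 62 (S0084): polynomial-time non-bipartite Ramanujan graphs.  Definitions.

Overview.  `q = d - 1`.  Start from a perfect matching on the vertices; every vertex has `q` free
half-edges.  We match free half-edges two at a time.  Two symmetric matrices `a`, `b` on the free
half-edges (row sums 1) are updated by the Schur-complement rule `upd`.  A quadratic-form invariant
`Inv` (sign `+1` for `a`, `-1` for `b`) is preserved as long as `dd > 0`, and once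
`tau2 a, tau2 b ≤ 2` ANY completion has all non-trivial eigenvalues in `[-x, x]`, `x < 2√q`.
The pair to match is chosen by minimising a potential `pot`; the analysis averages over a weight
`π` on pairs (structure `Ctx`).
-/

set_option autoImplicit false
open Matrix Finset

namespace Crest.Agent.R62

/-! ## the update and the tracked quantities (over any ordered field: `ℚ` for the algorithm) -/

section Gen
variable {K : Type*} [Field K] [LinearOrder K] [IsStrictOrderedRing K]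
variable {ι : Type*} [Fintype ι] [DecidableEq ι]

/-- `d = (1-f)² - g h` -/
def dd (M : Matrix ι ι K) (i j : ι) : K := (1 - M i j) ^ 2 - M i i * M j j

/-- first coordinate of `K p_k` -/
def kap1 (M : Matrix ι ι K) (i j k : ι) : K := ((1 - M i j) * M k j + M j j * M k i) / dd M i j

/-- second coordinate of `K p_k` -/
def kap2 (M : Matrix ι ι K) (i j k : ι) : K := ((1 - M i j) * M k i + M i i * M k j) / dd M i j

/-- the Schur increment `p_kᵀ K p_l` -/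
def del (M : Matrix ι ι K) (i j k l : ι) : K := kap1 M i j k * M l i + kap2 M i j k * M l j

/-- the updated matrix (rows and columns `i`, `j` are set to zero) -/
def upd (M : Matrix ι ι K) (i j : ι) : Matrix ι ι K :=
  Matrix.of fun k l => if k = i ∨ k = j ∨ l = i ∨ l = j then 0 else M k l + del M i j k l

def tau1 (M : Matrix ι ι K) : K := M.trace
def tau2 (M : Matrix ι ι K) : K := (M * M).trace
def tau4 (M : Matrix ι ι K) : K := (M * M * M * M).trace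
def WW (x y : Matrix ι ι K) : K := (x * x * y).trace
def rr (M : Matrix ι ι K) (k : ι) : K := (M * M) k k
def rho (S : Finset ι) (c : K) (M : Matrix ι ι K) : K := ∑ k ∈ S, (rr M k - c) ^ 2
def Del (M : Matrix ι ι K) : K := ∑ k, M k k ^ 2
def Q4 (M : Matrix ι ι K) : K := ∑ k, ∑ l, M k l ^ 4
/-- squared positive part -/
def pp (x : K) : K := max x 0 ^ 2

/-- increment of `tau1` -/
def eps1 (M : Matrix ι ι K) (i j : ι) : K :=
  (2 * (M * M) i j * (1 - M i j) + M i i * (rr M j - 1) + M j j * (rr M i - 1)) / dd M i j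

def NN2 (M : Matrix ι ι K) (i j : ι) : K :=
  (rr M i - 1) * (rr M j - 1) + 2 * ((M * M * M) i j - M i j) * (1 - M i j)
    + M i i * (M * M * M) j j + (M * M * M) i i * M j j - (M * M) i j ^ 2 - 2 * (M i i * M j j)

def NN3 (M : Matrix ι ι K) (i j : ι) : K :=
  (M * M * M) i i * (rr M j - 1) + (M * M * M) j j * (rr M i - 1)
    + 2 * (M * M * M * M) i j * (1 - M i j) + M i i * ((M * M * M * M) j j - rr M j)
    + M j j * ((M * M * M * M) i i - rr M i) - 2 * (M * M) i j * ((M * M * M) i j - M i j)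

def NN4 (M : Matrix ι ι K) (i j : ι) : K :=
  (M * M * M * M) i i * (rr M j - 1) + (M * M * M * M) j j * (rr M i - 1)
    + (M * M * M) i i * (M * M * M) j j - rr M i * rr M j
    + 2 * (M * M * M * M * M) i j * (1 - M i j)
    + M i i * ((M * M * M * M * M) j j - (M * M * M) j j)
    + M j j * ((M * M * M * M * M) i i - (M * M * M) i i)
    - 2 * (M * M) i j * (M * M * M * M) i j - (M * M * M) i j ^ 2
    + 2 * M i j * (M * M * M) i j + (M * M) i j ^ 2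

/-- increment of the squared row norm `rr M k` -/
def drr (M : Matrix ι ι K) (i j k : ι) : K :=
  2 * (kap1 M i j k * (M * M) k i + kap2 M i j k * (M * M) k j)
    + kap1 M i j k ^ 2 * (rr M i - 1) + kap2 M i j k ^ 2 * (rr M j - 1)
    + 2 * kap1 M i j k * kap2 M i j k * (M * M) i j

/-- the `2 × 2` block of `w` at `i, j` -/
def br (w : Matrix ι ι K) (i j : ι) : Matrix (Fin 2) (Fin 2) K := !![w i i, w i j; w j i, w j j]

/-- `K = (X - [M])⁻¹` -/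
def KK (M : Matrix ι ι K) (i j : ι) : Matrix (Fin 2) (Fin 2) K :=
  (dd M i j)⁻¹ • !![M j j, 1 - M i j; 1 - M i j, M i i]

/-- `K_x ([w c] - [w] X)` -/
def FF (x w c : Matrix ι ι K) (i j : ι) : Matrix (Fin 2) (Fin 2) K :=
  KK x i j * (br (w * c) i j - br w i j * !![0, 1; 1, 0])

/-- symmetric with row sums `1` -/
def RS (M : Matrix ι ι K) : Prop := M.IsSymm ∧ ∀ k, ∑ l, M k l = 1

/-- symmetric, supported on `U × U`, row sums `1` on `U` -/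
def RSU (U : Finset ι) (M : Matrix ι ι K) : Prop :=
  M.IsSymm ∧ (∀ k l, k ∉ U → M k l = 0) ∧ ∀ k ∈ U, ∑ l, M k l = 1

/-- parameters of the potential -/
structure Par (K : Type*) where
  m : K
  g : K
  c : K
  ell : K
  Wq : K
  a1 : K
  a2 : K
  a3 : K
  a3L : K
  a4 : K
  a5 : K
  a6 : K
  a7 : K
  c3a : K
  c3b : K
  t0a : K
  t0b : K

def half (P : Par K) (S : Finset ι) (x y : Matrix ι ι K) (c3 t0 : K) : K :=
  P.a1 * pp (|tau1 x| - P.ell) + P.a2 * (tau2 x - P.m + P.g) ^ 2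
    + P.a3 * pp (|WW x x| - |c3|) + P.a3 * pp (|WW x y| - t0) + P.a3L * (WW x x - c3) ^ 2
    + P.a4 * tau4 x + P.a5 * rho S P.c x + P.a6 * Del x + P.a7 * (tau2 x - 1)

/-- the potential -/
def pot (P : Par K) (S : Finset ι) (a b : Matrix ι ι K) : K :=
  P.Wq * (Q4 a + Q4 b) + half P S a b P.c3a P.t0a + half P S b a P.c3b P.t0b

/-! ### exponents (everything is a power of `t ≈ n^(1/eD)`) -/
def eD : ℕ := 1000001
def ek : ℕ := 329210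
def eE : ℕ := 670791     -- eD - ek
def er0 : ℕ := 341582    -- eD - 2 ek + 1
def eal : ℕ := 413000
def eth : ℕ := 168000
def ede : ℕ := 10
def ekA : ℕ := 293610
def ehA : ℕ := 636240
def euA : ℕ := 111820
def ega : ℕ := 334100
def ekB : ℕ := 333060
def er : ℕ := 332420
def ehB : ℕ := 665510
def euB : ℕ := 166220
def ev1 : ℕ := 450
def edd : ℕ := 10
def evv : ℕ := 870
def eyy : ℕ := 670340
def eph : ℕ := 167480

/-- global constants of a run -/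
structure Glob (K : Type*) where
  t : K
  n : K
  m0 : K
  E : K
  c3a : K
  c3b : K
  t0a : K
  t0b : K

/-- parameters while `m > t^(2 ega)` -/
def parAB (G : Glob K) (m : K) : Par K where
  m := m
  g := G.E * m / (G.E + m)
  c := m / (G.E + m)
  ell := G.t ^ er0 * max 0 (min 1 ((m - G.t ^ (2 * eal)) / G.t ^ (2 * eal)))
  Wq := 11 / (10 * m) + G.m0 / (10 * m ^ 2)
  a1 := 1 / G.t ^ (2 * er)
  a2 := if G.t ^ (2 * eal) < m then 1 / G.t ^ (2 * ehA) else 1 / G.t ^ (2 * ehB)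
  a3 := 100 / G.n ^ 2
  a3L := if G.t ^ (2 * eal) < m then 100 / G.n ^ 2 else 0
  a4 := if G.t ^ (2 * eal) < m then 1 / G.t ^ (4 * ekA) else 1 / G.t ^ (4 * ekB)
  a5 := if G.t ^ (2 * eal) < m then 1 / G.t ^ (4 * euA) else 1 / G.t ^ (4 * euB)
  a6 := 1 / G.t ^ (2 * ede)
  a7 := 0
  c3a := G.c3a
  c3b := G.c3b
  t0a := G.t0a
  t0b := G.t0b

/-- parameters of the final phase `m ≤ t^(2 ega)` -/
def parC (G : Glob K) (m : K) : Par K where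
  m := m
  g := 0
  c := 0
  ell := 0
  Wq := 0
  a1 := 0
  a2 := 0
  a3 := 0
  a3L := 0
  a4 := 0
  a5 := G.t ^ (2 * ev1) / m
  a6 := 1 / (G.t ^ (2 * ede + 1) * m / G.t ^ (2 * ega) + 1 / G.t ^ (2 * edd))
  a7 := 1 / (m ^ 2 / G.t ^ eyy + 1 / 2)
  c3a := G.c3a
  c3b := G.c3b
  t0a := G.t0a
  t0b := G.t0b

def par (G : Glob K) (m : K) : Par K := if G.t ^ (2 * ega) < m then parAB G m else parC G m

/-- the global constants read off the initial matrices -/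
def globOf (t n m0 : K) (a0 b0 : Matrix ι ι K) : Glob K where
  t := t
  n := n
  m0 := m0
  E := (m0 - tau2 a0) * m0 / tau2 a0
  c3a := WW a0 a0
  c3b := WW b0 b0
  t0a := |WW a0 b0|
  t0b := |WW b0 a0|

end Gen

/-- what the analysis needs to know about the global constants -/
structure GoodG (q : ℕ) (G : Glob ℝ) : Prop where
  n1 : G.t ^ eD ≤ G.n
  n2 : G.n ≤ 2 * G.t ^ eD
  m0 : G.m0 = q * G.n
  E1 : G.t ^ eE ≤ G.E
  E2 : G.E ≤ G.t ^ (eE + 1)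
  ca : |G.c3a| + G.n ≤ G.t ^ (eD + 1)
  cb : |G.c3b| + G.n ≤ G.t ^ (eD + 1)
  ta : 0 ≤ G.t0a
  tb : 0 ≤ G.t0b
  ga : 6 / 5 * G.n ≤ G.c3a - G.t0a
  gb : 6 / 5 * G.n ≤ -G.c3b - G.t0b

/-! ## the averaging context -/

/-- numerical parameters: `s = √m`, `bt = √B`, `u = √w`, `tt = √T`, `rt = √R`, `dl = √Δ` -/
structure Num where
  s : ℝ
  bt : ℝ
  u : ℝ
  K : ℝ
  tt : ℝ
  rt : ℝ
  dl : ℝ
  de : ℝ
  lam : ℝ
  pm : ℝ
  c : ℝ

namespace Num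
variable (N : Num)

/-- `m` -/
def m : ℝ := N.s ^ 2
/-- `w` -/
def w : ℝ := N.u ^ 2
/-- `√S` -/
def sS : ℝ := 2 * N.K ^ 2 + 4 * N.K * N.u ^ 2

structure OK : Prop where
  s0 : 0 ≤ N.s
  bt1 : 1 ≤ N.bt
  bts : 10 * N.bt ^ 2 ≤ N.s ^ 2
  u1 : 1 ≤ N.u
  us : N.u ^ 2 ≤ N.s
  K1 : 1 ≤ N.K
  tt0 : 0 ≤ N.tt
  tts : N.tt ≤ N.s
  rt0 : 0 ≤ N.rt
  rts : N.rt ≤ 2 * N.s
  dl0 : 0 ≤ N.dl
  dle : N.dl ≤ N.de
  de1 : 1 ≤ N.de
  deb : N.de ^ 2 ≤ N.bt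
  lam0 : 0 ≤ N.lam
  lamb : N.lam ≤ N.bt
  pm1 : 1 ≤ N.pm
  pm2 : N.pm ≤ 3 / 2
  c0 : 0 ≤ N.c
  c1 : N.c ≤ 1

def err1 : ℝ := N.bt ^ 2 * N.s ^ 2 + N.K ^ 2 * N.s
def var1 : ℝ := N.K ^ 4 + N.dl ^ 2 * N.s ^ 2
def var14 : ℝ := N.s ^ 4 + N.de ^ 4 * N.w ^ 2 * N.s ^ 2
/-- `p` is a bound for `|τ₁| |τ₃|` -/
def err2 (p : ℝ) : ℝ :=
  N.bt ^ 2 * N.w * N.s + N.bt * N.s * (N.w ^ 2 + N.K ^ 3 + N.tt + N.dl * N.K * N.rt) + p
    + N.K ^ 4 + N.dl ^ 2 * N.s ^ 2 + N.w * N.rt ^ 2 + N.tt * N.s * N.rt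
def var2 : ℝ := N.s ^ 4 + N.K ^ 6 + N.de ^ 2 * N.K ^ 2 * N.s ^ 2 + N.de ^ 4 * N.w ^ 2 * N.s ^ 2
def err3 : ℝ :=
  N.bt * N.s * (N.K ^ 4 + N.K * N.s ^ 2) + N.de ^ 4 * N.K * N.s ^ 2 * (N.s + N.w ^ 2)
    + N.de ^ 2 * N.K ^ 3 * N.s ^ 2
def var3 : ℝ := N.de ^ 6 * (N.K ^ 8 + N.K ^ 2 * N.s ^ 2 * (N.s ^ 2 + N.w ^ 4))
def err4 : ℝ :=
  N.bt * N.K ^ 2 * N.s ^ 3 + N.bt * N.K ^ 6 + N.bt ^ 2 * N.K ^ 5 + N.de * N.s * N.K ^ 5
    + N.K ^ 3 * N.s ^ 2 + N.bt * N.s * N.K ^ 4 + N.s ^ 4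
def err5 : ℝ :=
  N.de ^ 4 * N.u ^ 3 * N.s ^ 2 + N.bt ^ 2 * (N.w ^ 2 * N.s + N.w ^ 4 + N.K * N.sS)
    + N.bt * N.s * N.w ^ 3 + N.lam * N.w * N.K * N.sS + N.de * N.s * N.w * N.sS
    + N.de ^ 2 * N.sS ^ 2
/-- `p` is a bound for `|τ₁|` -/
def err6 (p : ℝ) : ℝ :=
  N.s * N.dl + N.lam * N.dl * N.sS + N.bt ^ 2 * N.dl * (N.rt + N.w ^ 2)
    + (N.tt + N.dl ^ 2) * N.dl * N.rt + p * N.dl * N.rt + N.bt * N.s * N.dl ^ 2 * N.w
    + N.rt ^ 2 + N.dl ^ 4 * N.s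
/-- `qq²` is a bound for `Q4` -/
def err7 (qq : ℝ) : ℝ :=
  N.bt * N.s * qq * (N.s + N.u ^ 3) + N.de ^ 4 * (N.s ^ 2 + N.w ^ 3)
    + N.bt ^ 2 * N.w ^ 2 * qq ^ 2 + N.de ^ 2 * N.u * N.s * qq ^ 2

end Num

section Ctx
variable {ι : Type} [Fintype ι] [DecidableEq ι]

/-- the weight `ω_i` -/
noncomputable def om (a b : Matrix ι ι ℝ) (c : ℝ) (i : ι) : ℝ := 1 + |rr a i - c| + |rr b i - c|

/-- pairs on which the update is harmless -/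
def Good (a b : Matrix ι ι ℝ) (i j : ι) : Prop :=
  i ≠ j ∧ |a i j| ≤ 1 / 1000 ∧ |b i j| ≤ 1 / 1000 ∧ |a i i * a j j| ≤ 1 / 1000 ∧
    |b i i * b j j| ≤ 1 / 1000

/-- a priori bounds on one matrix -/
structure Bnd (N : Num) (x : Matrix ι ι ℝ) : Prop where
  rs : RS x
  rho : rho univ N.c x ≤ N.w ^ 2
  t4 : tau4 x ≤ N.K ^ 4
  t2 : tau2 x ≤ N.tt ^ 2
  r2 : ∑ k, rr x k ^ 2 ≤ N.rt ^ 2
  dl : Del x ≤ N.dl ^ 2

end Ctx

/-- two matrices, a priori bounds, and an (unnormalised) weight `π = 1 - lam φ - β` on pairs -/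
structure Ctx (ι : Type) [Fintype ι] [DecidableEq ι] extends Num where
  a : Matrix ι ι ℝ
  b : Matrix ι ι ℝ
  π : ι → ι → ℝ
  χa : ℝ
  χb : ℝ
  ok : toNum.OK
  card : s ^ 2 = Fintype.card ι
  ha : Bnd toNum a
  hb : Bnd toNum b
  χa1 : |χa| ≤ 1
  χb1 : |χb| ≤ 1
  π0 : ∀ i j, 0 ≤ π i j
  πle : ∀ i j, π i j ≤ pm
  πs : ∀ i j, π i j = π j i
  supp : ∀ i j, π i j ≠ 0 → Good a b i j
  hβ : ∀ i, ∑ j, |1 - lam * (χa * a i j + χb * b i j) - π i j| ≤ bt ^ 2 * om a b c i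
  hF : ∑ i, ∑ j, (1 - π i j) ^ 2 ≤ 2 * bt ^ 2 * s ^ 2

namespace Ctx
variable {ι : Type} [Fintype ι] [DecidableEq ι] (C : Ctx ι)

/-- unnormalised expectation -/
def E (X : ι → ι → ℝ) : ℝ := ∑ i, ∑ j, C.π i j * X i j
/-- total mass -/
def Z : ℝ := ∑ i, ∑ j, C.π i j
noncomputable def ω (i : ι) : ℝ := om C.a C.b C.c i
def φ : Matrix ι ι ℝ := C.χa • C.a + C.χb • C.b
def β (i j : ι) : ℝ := 1 - C.lam * (C.χa * C.a i j + C.χb * C.b i j) - C.π i j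
/-- `x` is one of the two matrices -/
def Let (x : Matrix ι ι ℝ) : Prop := x = C.a ∨ x = C.b

/-- exchange the two matrices -/
def swap : Ctx ι :=
  { C with
    a := C.b, b := C.a, χa := C.χb, χb := C.χa, ha := C.hb, hb := C.ha, χa1 := C.χb1, χb1 := C.χa1
    supp := fun i j h => by
      obtain ⟨h1, h2, h3, h4, h5⟩ := C.supp i j h
      exact ⟨h1, h3, h2, h5, h4⟩
    hβ := fun i => by
      have h := C.hβ i
      have e : om C.b C.a C.c i = om C.a C.b C.c i := by unfold om; ring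
      rw [e]
      refine le_of_eq_of_le (Finset.sum_congr rfl fun j _ => ?_) h
      rw [add_comm] }

@[simp] theorem swap_a : C.swap.a = C.b := rfl
@[simp] theorem swap_b : C.swap.b = C.a := rfl
@[simp] theorem swap_χa : C.swap.χa = C.χb := rfl
@[simp] theorem swap_χb : C.swap.χb = C.χa := rfl
@[simp] theorem swap_π : C.swap.π = C.π := rfl
@[simp] theorem swap_num : C.swap.toNum = C.toNum := rfl
@[simp] theorem swap_E (X : ι → ι → ℝ) : C.swap.E X = C.E X := rfl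
@[simp] theorem swap_Z : C.swap.Z = C.Z := rfl

end Ctx

/-- hypotheses of one step in the main phases -/
structure HypAB (N : Num) (P P' : Par ℝ) (τ d2 θ R η tol G cM qq : ℝ) : Prop where
  ok : N.OK
  m : P.m = N.s ^ 2
  m' : P'.m = P.m - 2
  tt : N.tt = N.s
  rt : N.rt = 2 * N.s
  dl : N.dl = N.de
  wK : N.w ≤ N.K
  c : P.c = N.c
  -- weights
  d0 : 0 ≤ d2
  θ0 : 0 < θ
  θ1 : θ ≤ 1 / 1000
  lamθ : N.lam * θ ≤ 1 / 4
  pm : N.pm = 1 + 2 * N.lam * θ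
  B : 2 * (d2 + 2 / θ ^ 2 + 2 * 10 ^ 6 * N.de ^ 4) ≤ N.bt ^ 2
  -- normalisers
  R0 : 0 < R
  η0 : 0 < η
  tol0 : 0 < tol
  qq0 : 0 < qq
  a1 : P.a1 = 1 / R ^ 2
  a2 : P.a2 = 1 / η ^ 2
  a3 : P.a3 = 1 / tol ^ 2
  a3L : P.a3L = 0 ∨ (P.a3L = 1 / tol ^ 2 ∧ τ * (P.g * cM) ≤ tol * P.m)
  a4 : P.a4 = 1 / N.K ^ 4
  a5 : P.a5 = 1 / N.w ^ 2
  a6 : P.a6 = 1 / N.de ^ 2
  a7 : P.a7 = 0
  Wq : P.Wq = 1 / qq ^ 2
  a1' : 0 ≤ P'.a1 ∧ P'.a1 ≤ P.a1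
  a2' : 0 ≤ P'.a2 ∧ P'.a2 ≤ P.a2
  a3' : 0 ≤ P'.a3 ∧ P'.a3 ≤ P.a3
  a3L' : 0 ≤ P'.a3L ∧ P'.a3L ≤ P.a3L
  a4' : 0 ≤ P'.a4 ∧ P'.a4 ≤ P.a4
  a5' : 0 ≤ P'.a5 ∧ P'.a5 ≤ P.a5
  a6' : 0 ≤ P'.a6 ∧ P'.a6 ≤ P.a6
  a7' : P'.a7 = 0
  c3a : P'.c3a = P.c3a
  c3b : P'.c3b = P.c3b
  t0a : P'.t0a = P.t0a
  t0b : P'.t0b = P.t0b
  t0a0 : 0 ≤ P.t0a
  t0b0 : 0 ≤ P.t0b
  cMa : |P.c3a| + tol ≤ cM
  cMb : |P.c3b| + tol ≤ cM
  -- the moving targets
  g : P.g = P.m * (1 - P.c)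
  ηg : η ≤ P.g
  dc : |P'.c - P.c| ≤ 2 / P.m
  dc2 : |2 * P.c * P.g + P.m ^ 2 * (P'.c - P.c)| ≤ 4
  dg : |P'.g - P.g + 2 * (1 - P.c) ^ 2| ≤ 8 / P.m
  ell0 : 0 ≤ P'.ell
  ell1 : P'.ell ≤ P.ell
  G0 : 0 ≤ G
  speed : 2 * P.m ^ 2 * (P.ell - P'.ell) ≤ N.lam * G
  speed2 : τ * (P.m * (P.ell - P'.ell) ^ 2) ≤ R ^ 2
  steer : N.lam = 0 ∨ (P.a3L = 1 / tol ^ 2 ∧ G ≤ P.c3a - P.t0a - 2 * tol ∧
    G ≤ -P.c3b - P.t0b - 2 * tol)
  Wq0 : 0 ≤ P'.Wq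
  dW : |P'.Wq - P.Wq| ≤ 10 * P.Wq / P.m
  rate7 : τ * (P.m ^ 2 * (P'.Wq - P.Wq) - 4 * P.m * P'.Wq + 2.1 * N.pm * P'.Wq * qq ^ 2)
    ≤ P.Wq * P.m
  rate5 : 2.2 * N.pm * qq ^ 2 ≤ 2 * P.m
  -- smallness
  sB : τ * N.bt ^ 2 ≤ P.m
  e1 : τ * N.err1 ≤ R * P.m + N.lam * G
  v1 : τ * N.var1 ≤ R ^ 2 * P.m
  e2 : τ * (N.err2 ((P.ell + R) * cM) + P.m) ≤ η * P.m
  v2 : τ * N.var2 ≤ η ^ 2 * P.m
  e3 : τ * N.err3 ≤ tol * P.m
  v3 : τ * N.var3 ≤ tol ^ 2 * P.m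
  e4 : τ * (cM ^ 2 + N.err4) ≤ N.K ^ 4 * P.m
  e5 : τ * (N.err5 + (η + N.bt ^ 2) * N.s * N.w) ≤ N.w ^ 2 * P.m
  q5 : τ * (qq ^ 2 * (1 - P.c) ^ 2) ≤ N.w ^ 2
  e6 : τ * N.err6 (P.ell + R) ≤ N.de ^ 2 * P.m
  e7 : τ * N.err7 qq ≤ qq ^ 2 * P.m

/-- hypotheses of one step in the final phase -/
structure HypC (N : Num) (P P' : Par ℝ) (τ d2 ts ρs : ℝ) : Prop where
  ok : N.OK
  m : P.m = N.s ^ 2
  m' : P'.m = P.m - 2
  lam : N.lam = 0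
  pm : N.pm = 1
  c : N.c = 0
  d0 : 0 ≤ d2
  B : 2 * (d2 + 2 * 10 ^ 6 + 2 * 10 ^ 6 * N.de ^ 4) ≤ N.bt ^ 2
  ts1 : 1 / 2 ≤ ts
  tt : N.tt ^ 2 = 1 + ts
  K : N.K = N.tt
  rt : N.rt = N.w
  wmin : min ρs (N.tt ^ 4) ≤ N.w ^ 2
  ρ0 : 0 < ρs
  dl0 : 0 < N.dl
  z : P.c = 0 ∧ P.Wq = 0 ∧ P.a1 = 0 ∧ P.a2 = 0 ∧ P.a3 = 0 ∧ P.a3L = 0 ∧ P.a4 = 0
  z' : P'.c = 0 ∧ P'.Wq = 0 ∧ P'.a1 = 0 ∧ P'.a2 = 0 ∧ P'.a3 = 0 ∧ P'.a3L = 0 ∧ P'.a4 = 0
  a5 : P.a5 = 1 / ρs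
  a6 : P.a6 = 1 / N.dl ^ 2
  a7 : P.a7 = 1 / ts
  a5' : 0 ≤ P'.a5 ∧ P'.a5 ≤ 2 * P.a5 ∧ P'.a5 * (1 - 2 / P.m) ≤ P.a5
  a6' : 0 ≤ P'.a6 ∧ P'.a6 ≤ 2 * P.a6 ∧ P'.a6 * (1 - 2 / P.m) ≤ P.a6
  a7' : 0 ≤ P'.a7 ∧ P'.a7 ≤ 2 * P.a7 ∧ P'.a7 * (1 - 4 / P.m) ≤ P.a7
  tm : 10 * N.tt ^ 2 ≤ P.m
  ws : 30 * N.w ≤ N.s
  e2 : τ * (N.err2 (N.s * N.dl * N.tt ^ 3) + N.tt ^ 4) ≤ ts * P.m
  e5 : τ * N.err5 ≤ ρs * P.m
  e6 : τ * (N.err6 (N.s * N.dl) + N.w ^ 2 * N.dl ^ 2) ≤ N.dl ^ 2 * P.m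

/-! ## half-edges, partial matchings, the invariant -/

/-- vertices `V` with a perfect matching `mate`, half-edges `H`, `q` at each vertex -/
structure HE (V H : Type) [Fintype H] [DecidableEq V] (q : ℕ) where
  vert : H → V
  mate : V → V
  mate_mate : ∀ u, mate (mate u) = u
  mate_ne : ∀ u, mate u ≠ u
  fib : ∀ u, (univ.filter fun k => vert k = u).card = q

section Graph
variable {V H : Type} [Fintype V] [DecidableEq V] [Fintype H] [DecidableEq H] {q : ℕ}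

/-- free half-edges of a partial matching `pm` (an involution of `H`) -/
def free (pm : H → H) : Finset H := univ.filter fun k => pm k = k

/-- match `i` with `j` -/
def join (pm : H → H) (i j : H) : H → H := fun k => if k = i then j else if k = j then i else pm k

namespace HE
variable (Γ : HE V H q)

def adj (pm : H → H) (u v : V) : Prop :=
  v = Γ.mate u ∨ ∃ k, Γ.vert k = u ∧ pm k ≠ k ∧ Γ.vert (pm k) = v

def allowed (pm : H → H) (i j : H) : Prop :=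
  Γ.vert i ≠ Γ.vert j ∧ ¬ Γ.adj pm (Γ.vert i) (Γ.vert j)

/-- no loops, no multiple edges -/
def Simple (pm : H → H) : Prop :=
  ∀ k, pm k ≠ k → Γ.vert (pm k) ≠ Γ.vert k ∧ Γ.vert (pm k) ≠ Γ.mate (Γ.vert k) ∧
    ∀ l, l ≠ k → Γ.vert l = Γ.vert k → pm l ≠ l → Γ.vert (pm l) ≠ Γ.vert (pm k)

/-- the quadratic form of the invariant -/
noncomputable def form (x σ s : ℝ) (pm : H → H) (M : Matrix H H ℝ) (z : V → ℝ) (w : H → ℝ) : ℝ :=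
  x * ∑ u, z u ^ 2
    - s * (∑ u, z u * z (Γ.mate u) + ∑ k ∈ univ \ free pm, z (Γ.vert k) * z (Γ.vert (pm k)))
    - σ * ∑ k ∈ free pm, z (Γ.vert k) ^ 2 - 2 * ∑ k ∈ free pm, z (Γ.vert k) * w k
    + (s * (w ⬝ᵥ M *ᵥ w) + σ * ∑ k, w k ^ 2) / (1 - σ ^ 2)

def Inv (x σ s : ℝ) (pm : H → H) (M : Matrix H H ℝ) : Prop :=
  ∀ z : V → ℝ, ∑ u, z u = 0 → ∀ w : H → ℝ, (∀ k, k ∉ free pm → w k = 0) →
    ∑ k, w k = (s - σ) * ∑ k ∈ free pm, z (Γ.vert k) → 0 ≤ Γ.form x σ s pm M z w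

variable {K : Type*} [Field K]

/-- the initial matrices (`s = 1`: `a`, `s = -1`: `b`) -/
def M0 (s σ y : K) : Matrix H H K := Matrix.of fun k l =>
  s * (-σ * (if k = l then 1 else 0) +
      (1 - σ ^ 2) / (y ^ 2 - 1) * y * (if Γ.vert k = Γ.vert l then 1 else 0))
    + (1 - σ ^ 2) / (y ^ 2 - 1) * (if Γ.vert l = Γ.mate (Γ.vert k) then 1 else 0)
    + (1 - (s * (-σ + (1 - σ ^ 2) / (y ^ 2 - 1) * y * q) + (1 - σ ^ 2) / (y ^ 2 - 1) * q))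
        / Fintype.card H

end HE

/-- matrices reachable from `M0` by updates at free pairs with `dd ≠ 0` -/
inductive Reach {K : Type*} [Field K] (M0 : Matrix H H K) : (H → H) → Matrix H H K → Prop
  | init : Reach M0 id M0
  | step {pm : H → H} {M : Matrix H H K} {i j : H} : Reach M0 pm M → i ≠ j → pm i = i → pm j = j →
      dd M i j ≠ 0 → Reach M0 (join pm i j) (upd M i j)

/-- a state of the greedy procedure -/
structure St (H : Type) (K : Type*) where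
  pm : H → H
  a : Matrix H H K
  b : Matrix H H K

section Step
variable {K : Type*} [Field K] [LinearOrder K] [IsStrictOrderedRing K]

def St.next (σ : St H K) (i j : H) : St H K := ⟨join σ.pm i j, upd σ.a i j, upd σ.b i j⟩

/-- value of the potential at a state -/
def St.val (G : Glob K) (σ : St H K) : K := pot (par G (free σ.pm).card) (free σ.pm) σ.a σ.b

def HE.Cand (Γ : HE V H q) (σ : St H K) (i j : H) : Prop :=
  σ.pm i = i ∧ σ.pm j = j ∧ Γ.allowed σ.pm i j ∧ 0 < dd σ.a i j ∧ 0 < dd σ.b i j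

/-- greedy step: a candidate pair minimising the potential -/
def HE.Step (Γ : HE V H q) (G : Glob K) (σ σ' : St H K) : Prop :=
  ∃ i j, Γ.Cand σ i j ∧ σ' = σ.next i j ∧
    ∀ i' j', Γ.Cand σ i' j' → (σ.next i j).val G ≤ (σ.next i' j').val G

end Step

end Graph

end Crest.Agent.R62
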