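import Crest.Agent.R62.Good
import Crest.Agent.R62.Init
import Crest.Agent.R62.Cast
import Crest.Agent.R62.Size
import Crest.Agent.R62.AlgInit
import Crest.Agent.R62.AlgStep
import Crest.Agent.R62.AlgComp

/-!
# R62-Main: the main loop
-/

set_option autoImplicit false
open Matrix Finset

namespace Crest.Agent.R62

open Crest.Agent.PTime

/-- size bound for the states of the run -/
def KB (q n h : ℕ) : ℕ := 100 * (q * n + 1) ^ 2 * (8 * (q * n + 1) ^ 4 * (h + 1) + 1)

theorem PT_KB {α : Type*} [Enc α] (q : ℕ) {n h : α → ℕ} (hn : PT n) (_hb : PB n) (hh : PT h) :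
    PT (fun a => KB q (n a) (h a)) := by
  have h1 : PT (fun a => q * n a + 1) := ((PT.const q).mul hn).add (PT.const 1)
  have h2 : PT (fun a => (q * n a + 1) ^ 2) := h1.pow (PT.const 2) (PB.const 2)
  have h4 : PT (fun a => (q * n a + 1) ^ 4) := h1.pow (PT.const 4) (PB.const 4)
  exact ((PT.const 100).mul h2).mul
    ((((PT.const 8).mul h4).mul (hh.add (PT.const 1))).add (PT.const 1))

theorem PB_KB {α : Type*} [Enc α] (q : ℕ) {n h : α → ℕ} (hn : PB n) (hh : PB h) :
    PB (fun a => KB q (n a) (h a)) := by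
  unfold KB; fun_prop

/-- loop invariant of the list algorithm -/
structure LInv (q n : ℕ) (hq : 0 < q) (hn : Even n) (x Cc : ℝ) (i : ℕ) (σ : StL) : Prop where
  wf : WFS (q * n) σ
  good : GoodSt (heFin q n hq hn) (glob0 q n hq hn).cast x (sigQ q n) Cc (decS (q * n) σ).cast
  ra : Reach (st0 q n hq hn).a (decS (q * n) σ).pm (decS (q * n) σ).a
  rb : Reach (st0 q n hq hn).b (decS (q * n) σ).pm (decS (q * n) σ).b
  cnt : (free (decS (q * n) σ).pm).card ≤ mfN n ∨ (free (decS (q * n) σ).pm).card + 2 * i ≤ q * n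

theorem main_run (q : ℕ) (hq2 : 2 ≤ q) (hq : 0 < q) : ∃ n0 : ℕ, ∃ run : ℕ → List ℕ,
    PT (fun w : List Bool => run w.length) ∧
    ∀ (n : ℕ) (hn : Even n), n0 ≤ n →
      WFP (q * n) (run n) ∧ Function.Involutive (decP (q * n) (run n)) ∧
      (heFin q n hq hn).Simple (decP (q * n) (run n)) ∧
      Even (free (decP (q * n) (run n))).card ∧
      10 * (q + 1) ^ 2 ≤ (free (decP (q * n) (run n))).card ∧
      ∃ x : ℝ, x < 2 * Real.sqrt q ∧ ∀ pm' : Fin (q * n) → Fin (q * n),
        Function.Involutive pm' → Ext (decP (q * n) (run n)) pm' →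
        ∀ z : Fin n → ℝ, ∑ u, z u = 0 →
        |∑ u, z u * z ((heFin q n hq hn).mate u) +
          ∑ k, z ((heFin q n hq hn).vert k) * z ((heFin q n hq hn).vert (pm' k))|
          ≤ x * ∑ u, z u ^ 2 := by
  obtain ⟨Cc, t1, hCc, hgood⟩ := good_main q hq2
  obtain ⟨t2, hinit⟩ := init q hq2
  obtain ⟨ini, gl, PTini, PTgl, hini⟩ := exists_init q hq
  obtain ⟨stepL, PTstep, hstep⟩ := exists_stepL q hq
  obtain ⟨n0, hn0⟩ := params q hq (max (max t1 t2) (10 * (q + 1) ^ 2 + 2))
  let Kb : ℕ → ℕ := fun n => KB q n (sz (ini n))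
  let f : ℕ → StL → StL := fun n σ => stepL n (gl n) (mfN n) σ
  have PTf : PT (fun p : List Bool × StL => f p.1.length p.2) := by
    have h1 : PT (fun p : List Bool × StL =>
        ((⟨p.1.length⟩ : U), gl p.1.length, mfN p.1.length, p.2)) :=
      (PT.ulength PT.id.fst).pair ((PTgl.comp PT.id.fst).pair ((PT_mfN.comp PT.id.fst).pair PT.id.snd))
    exact PTstep.comp h1
  have PTK : PT (fun w : List Bool => Kb w.length) :=
    PT_KB q (PT.length PT.id) (PB.length PT.id) PTini.sz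
  have PBK : PB (fun w : List Bool => Kb w.length) := PB_KB q (PB.length PT.id) PTini.pb_sz
  have PTrun : PT (fun w : List Bool =>
      R317.iterG (f w.length) (Kb w.length) (q * w.length) (ini w.length)) :=
    R317.PT.iterG (f := fun w : List Bool => f w.length) PTf PTK PBK
      ((PT.const q).mul (PT.length PT.id)) ((PB.const q).mul (PB.length PT.id)) PTini
  refine ⟨n0, fun n => (R317.iterG (f n) (Kb n) (q * n) (ini n)).1, PTrun.fst, ?_⟩
  intro n hn hw
  obtain ⟨ht, hn1, hn2, hσ0, he1, he2⟩ := hn0 n hw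
  have ht1 : t1 ≤ (tN n : ℝ) := le_trans (le_trans (le_max_left _ _) (le_max_left _ _)) ht
  have ht2 : t2 ≤ (tN n : ℝ) := le_trans (le_trans (le_max_right _ _) (le_max_left _ _)) ht
  have ht3 : (10 * (q + 1) ^ 2 + 2 : ℝ) ≤ (tN n : ℝ) := le_trans (le_max_right _ _) ht
  have hcV : (Fintype.card (Fin n) : ℝ) = n := by simp
  obtain ⟨hσ1, hy1, hx, hG, hval⟩ := hinit (heFin q n hq hn) (tN n) (sigQ q n) ht2
    (by rw [hcV]; exact hn1) (by rw [hcV]; exact hn2) hσ0 he1 he2
  obtain ⟨hwf0, hdec0, hgl⟩ := hini n hn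
  have ea : (st0 q n hq hn).a.map Rat.cast =
      (heFin q n hq hn).M0 (1 : ℝ) (sigQ q n) (yv q (sigQ q n : ℝ)) := by
    show ((heFin q n hq hn).M0 1 _ _).map _ = _
    rw [HE.cast_M0, cast_yv]; simp
  have eb : (st0 q n hq hn).b.map Rat.cast =
      (heFin q n hq hn).M0 (-1 : ℝ) (sigQ q n) (yv q (sigQ q n : ℝ)) := by
    show ((heFin q n hq hn).M0 (-1) _ _).map _ = _
    rw [HE.cast_M0, cast_yv]; simp
  have eG : (glob0 q n hq hn).cast = globOf (tN n : ℝ) (Fintype.card (Fin n)) (q * Fintype.card (Fin n))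
      ((heFin q n hq hn).M0 (1 : ℝ) (sigQ q n) (yv q (sigQ q n : ℝ)))
      ((heFin q n hq hn).M0 (-1 : ℝ) (sigQ q n) (yv q (sigQ q n : ℝ))) := by
    unfold glob0
    rw [cast_globOf, ea, eb, hcV]; simp
  have eS : (st0 q n hq hn).cast = ⟨id, (heFin q n hq hn).M0 (1 : ℝ) (sigQ q n) (yv q (sigQ q n : ℝ)),
      (heFin q n hq hn).M0 (-1 : ℝ) (sigQ q n) (yv q (sigQ q n : ℝ))⟩ := by
    unfold St.cast; rw [ea, eb]; rfl
  rw [← eG] at hG hval
  rw [← eS] at hval
  have hGt : (glob0 q n hq hn).cast.t = tN n := by rw [eG]; rfl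
  have hGm : (glob0 q n hq hn).cast.m0 = Fintype.card (Fin (q * n)) := by
    rw [eG]; show (q : ℝ) * _ = _; simp
  have hmf : ((mfN n : ℕ) : ℝ) = (glob0 q n hq hn).cast.t ^ (2 * eph) := by
    rw [hGt]; unfold mfN; push_cast; rfl
  set x := yv q (sigQ q n : ℝ) + (sigQ q n : ℝ) * q with hxdef
  have hgd := hgood (heFin q n hq hn) (glob0 q n hq hn).cast x (sigQ q n) hG (by rw [hGt]; exact ht1)
    hGm hσ0 hσ1
  have htone : (1 : ℝ) ≤ tN n := by
    have : (0 : ℝ) ≤ 10 * (q + 1) ^ 2 := by positivity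
    linarith
  have hpow : (tN n : ℝ) ≤ (tN n : ℝ) ^ (2 * eph) := le_self_pow₀ htone (by unfold eph; omega)
  have hpow2 : (tN n : ℝ) ^ (2 * eph) ≤ (tN n : ℝ) ^ eD :=
    pow_le_pow_right₀ htone (by unfold eph eD; omega)
  -- the invariant holds initially
  have h0 : LInv q n hq hn x Cc 0 (ini n) := by
    have hfree : (free (st0 q n hq hn).pm).card = q * n := by
      show (free (id : Fin (q * n) → Fin (q * n))).card = _
      rw [free_id]; simp
    refine ⟨hwf0, ?_, ?_, ?_, ?_⟩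
    · rw [hdec0]
      have hfree' : (free (st0 q n hq hn).cast.pm).card = q * n := hfree
      refine ⟨fun _ => rfl, (heFin q n hq hn).simple_id, ?_, ?_, ?_, ?_, ?_, ?_, ?_⟩
      · rw [eS]; show RSU (free id) _; rw [free_id]; exact RS.rsu (HE.M0_RS _ _ _ _)
      · rw [eS]; show RSU (free id) _; rw [free_id]; exact RS.rsu (HE.M0_RS _ _ _ _)
      · rw [eS]; exact inv_init _ (Or.inl rfl) hσ0 hσ1 hy1
      · rw [eS]; exact inv_init _ (Or.inr rfl) hσ0 hσ1 hy1
      · rw [hfree']; exact hn.mul_left q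
      · rw [hfree', hGt]
        have : (n : ℝ) ≤ ((q * n : ℕ) : ℝ) := by
          exact_mod_cast Nat.le_mul_of_pos_left n hq
        linarith
      · rw [hfree', hGm]
        have hpos : (0 : ℝ) < ((q * n : ℕ) : ℝ) := by
          have : (n : ℝ) ≤ ((q * n : ℕ) : ℝ) := by
            exact_mod_cast Nat.le_mul_of_pos_left n hq
          linarith
        have : ((Fintype.card (Fin (q * n)) : ℕ) : ℝ) / ((q * n : ℕ) : ℝ) = 1 := by
          rw [Fintype.card_fin]; exact div_self hpos.ne'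
        rw [this, Real.log_one]; simpa using hval
    · rw [hdec0]; exact Reach.init
    · rw [hdec0]; exact Reach.init
    · right; rw [hdec0, hfree]; simp
  -- the invariant is preserved
  have hS : ∀ i σ, LInv q n hq hn x Cc i σ → LInv q n hq hn x Cc (i + 1) (f n σ) := by
    intro i σ h
    obtain ⟨hw1, hw2, hw3⟩ := hstep n hn (gl n) (mfN n) σ h.wf
    by_cases hc : (free (decS (q * n) σ).pm).card ≤ mfN n
    · have e : f n σ = σ := hw2 hc
      rw [e]
      exact ⟨h.wf, h.good, h.ra, h.rb, Or.inl hc⟩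
    · push Not at hc
      have hc' : (glob0 q n hq hn).cast.t ^ (2 * eph) < ((free (decS (q * n) σ).cast.pm).card : ℝ) := by
        rw [← hmf]; exact_mod_cast hc
      obtain ⟨⟨i0, j0, hc0⟩, hnext⟩ := (hgd _ h.good).1 hc'
      have hst := hw3 hc ⟨i0, j0, (HE.cast_cand _ _ _ _).1 hc0⟩
      rw [hgl] at hst
      have hg' := hnext _ (HE.cast_step _ _ hst)
      obtain ⟨i1, j1, ⟨c1, c2, c3, c4, c5⟩, e, -⟩ := hst
      have hij : i1 ≠ j1 := HE.allowed_ne _ c3
      refine ⟨hw1, hg', ?_, ?_, ?_⟩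
      · show Reach _ (decS (q * n) (stepL n (gl n) (mfN n) σ)).pm (decS (q * n) (stepL n (gl n) (mfN n) σ)).a
        rw [e]; exact Reach.step h.ra hij c1 c2 c4.ne'
      · show Reach _ (decS (q * n) (stepL n (gl n) (mfN n) σ)).pm (decS (q * n) (stepL n (gl n) (mfN n) σ)).b
        rw [e]; exact Reach.step h.rb hij c1 c2 c5.ne'
      · right
        show (free (decS (q * n) (stepL n (gl n) (mfN n) σ)).pm).card + _ ≤ _
        rw [e]
        have h2 := card_free_join (pm := (decS (q * n) σ).pm) h.good.inv hij c1 c2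
        have h3 := h.cnt
        have h4 : (free ((decS (q * n) σ).next i1 j1).pm).card + 2 = (free (decS (q * n) σ).pm).card := h2
        omega
  have hall : ∀ i, LInv q n hq hn x Cc i ((f n)^[i] (ini n)) := by
    intro i
    induction i with
    | zero => exact h0
    | succ i ih => rw [Function.iterate_succ_apply']; exact hS i _ ih
  have hsym : ∀ s : ℚ, ((heFin q n hq hn).M0 s (sigQ q n) (yv q (sigQ q n))).IsSymm :=
    fun s => (HE.M0_RS _ _ _ _).1
  have hsz : ∀ i, sz ((f n)^[i] (ini n)) ≤ Kb n := by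
    intro i
    have h := hall i
    have ha0 : ∀ k l, Ht ((st0 q n hq hn).a k l) (sz (ini n)) := fun k l => by
      rw [← hdec0]; exact (ht_of_sz _ _ k l).1
    have hb0 : ∀ k l, Ht ((st0 q n hq hn).b k l) (sz (ini n)) := fun k l => by
      rw [← hdec0]; exact (ht_of_sz _ _ k l).2
    have h1 := reach_ht (hsym 1) ha0 h.ra
    have h2 := reach_ht (hsym (-1)) hb0 h.rb
    rw [Fintype.card_fin] at h1 h2
    exact sz_le h.wf h1 h2
  have erun : R317.iterG (f n) (Kb n) (q * n) (ini n) = (f n)^[q * n] (ini n) :=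
    R317.iterG_eq fun i _ => hsz i
  simp only [erun]
  have h := hall (q * n)
  set σ := (f n)^[q * n] (ini n) with hσ
  have hlo : (glob0 q n hq hn).cast.t ^ (2 * eph) - 2 < ((free (decP (q * n) σ.1)).card : ℝ) := h.good.lo
  rw [hGt] at hlo
  have hbig : 10 * (q + 1) ^ 2 ≤ (free (decP (q * n) σ.1)).card := by
    have : ((10 * (q + 1) ^ 2 : ℕ) : ℝ) ≤ ((free (decP (q * n) σ.1)).card : ℝ) := by
      push_cast; linarith
    exact_mod_cast this
  have hend : (free (decP (q * n) σ.1)).card ≤ mfN n := by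
    rcases h.cnt with h1 | h1
    · exact h1
    · have h2 : (free (decP (q * n) σ.1)).card + 2 * (q * n) ≤ q * n := h1
      have h3 : 0 < 10 * (q + 1) ^ 2 := by positivity
      omega
  refine ⟨h.wf.1, h.good.inv, h.good.simp, h.good.ev, hbig, x, hx, fun pm' hp' he z hz => ?_⟩
  refine (hgd _ h.good).2 ?_ pm' hp' he z hz
  rw [← hmf]; exact_mod_cast hend

end Crest.Agent.R62
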